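import Mathlib
import Vale.Agent.N264X.FStmt

/-!
# P264, block F: tools
-/

open scoped ContDiff
open Set MeasureTheory intervalIntegral

noncomputable section

namespace Vale.Agent.N264X.P264Z.F

open Vale.Agent.P264Z

theorem cd1 {f : ℝ → ℝ} (hf : ContDiff ℝ ∞ f) : ContDiff ℝ ∞ (deriv f) :=
  (contDiff_infty_iff_deriv.1 hf).2

theorem hd {f : ℝ → ℝ} (hf : ContDiff ℝ ∞ f) (x : ℝ) : HasDerivAt f (deriv f x) x :=
  ((contDiff_infty_iff_deriv.1 hf).1 x).hasDerivAt

theorem deriv_mul' {f g : ℝ → ℝ} (hf : ContDiff ℝ ∞ f) (hg : ContDiff ℝ ∞ g) :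
    deriv (fun z => f z * g z) = fun z => deriv f z * g z + f z * deriv g z :=
  funext fun z => ((hd hf z).mul (hd hg z)).deriv

theorem deriv2_mul' {f g : ℝ → ℝ} (hf : ContDiff ℝ ∞ f) (hg : ContDiff ℝ ∞ g) :
    deriv (deriv (fun z => f z * g z)) = fun z =>
      deriv (deriv f) z * g z + 2 * (deriv f z * deriv g z) + f z * deriv (deriv g) z := by
  rw [deriv_mul' hf hg]
  funext z
  refine (((hd (cd1 hf) z).mul (hd hg z)).add ((hd hf z).mul (hd (cd1 hg) z))).deriv.trans ?_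
  ring

theorem M_eq (m : ℝ → ℝ) : Mop 7 m = fun x =>
    x ^ 2 * deriv (deriv m) x + 16 * x * deriv m x + 56 * m x := by
  funext x; unfold Mop; norm_num

theorem cdM {m : ℝ → ℝ} (hm : ContDiff ℝ ∞ m) : ContDiff ℝ ∞ (Mop 7 m) := by
  rw [M_eq]
  have h1 := cd1 hm
  have h2 := cd1 h1
  fun_prop

theorem cdL {m : ℝ → ℝ} (hm : ContDiff ℝ ∞ m) : ContDiff ℝ ∞ (Lop 7 m) :=
  cd1 (cd1 (cdM hm))

theorem M1_eq {m : ℝ → ℝ} (hm : ContDiff ℝ ∞ m) : deriv (Mop 7 m) = fun x =>
    x ^ 2 * deriv (deriv (deriv m)) x + 18 * x * deriv (deriv m) x + 72 * deriv m x := by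
  funext x
  rw [M_eq]
  have h := ((((hasDerivAt_pow 2 x).mul (hd (cd1 (cd1 hm)) x)).add
    (((hasDerivAt_id' x).const_mul 16).mul (hd (cd1 hm) x))).add ((hd hm x).const_mul 56)).deriv
  refine h.trans ?_
  simp; ring

theorem L_eq {m : ℝ → ℝ} (hm : ContDiff ℝ ∞ m) : Lop 7 m = fun x =>
    x ^ 2 * deriv (deriv (deriv (deriv m))) x + 20 * x * deriv (deriv (deriv m)) x
      + 90 * deriv (deriv m) x := by
  funext x
  unfold Lop
  rw [M1_eq hm]
  have h := ((((hasDerivAt_pow 2 x).mul (hd (cd1 (cd1 (cd1 hm))) x)).add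
    (((hasDerivAt_id' x).const_mul 18).mul (hd (cd1 (cd1 hm)) x))).add
    ((hd (cd1 hm) x).const_mul 72)).deriv
  refine h.trans ?_
  simp; ring

theorem L1_eq {m : ℝ → ℝ} (hm : ContDiff ℝ ∞ m) : deriv (Lop 7 m) = fun x =>
    x ^ 2 * deriv (deriv (deriv (deriv (deriv m)))) x + 22 * x * deriv (deriv (deriv (deriv m))) x
      + 110 * deriv (deriv (deriv m)) x := by
  funext x
  rw [L_eq hm]
  have h := ((((hasDerivAt_pow 2 x).mul (hd (cd1 (cd1 (cd1 (cd1 hm)))) x)).add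
    (((hasDerivAt_id' x).const_mul 20).mul (hd (cd1 (cd1 (cd1 hm))) x))).add
    ((hd (cd1 (cd1 hm)) x).const_mul 90)).deriv
  refine h.trans ?_
  simp; ring

theorem hdM {m : ℝ → ℝ} (hm : ContDiff ℝ ∞ m) (x : ℝ) :
    HasDerivAt (deriv (Mop 7 m)) (Lop 7 m x) x := hd (cd1 (cdM hm)) x

theorem cont_dn {G : ℝ → ℝ} (hG : ContDiff ℝ ∞ G) : Continuous (dn G) := by
  have h0 := hG.continuous
  have h1 := (cd1 hG).continuous
  have h2 := (cd1 (cd1 hG)).continuous
  unfold dn; fun_prop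

theorem cont_dh (b : ℝ) {G : ℝ → ℝ} (hG : ContDiff ℝ ∞ G) : Continuous (dh b G) := by
  have h0 := hG.continuous
  have h1 := (cd1 hG).continuous
  have h2 := (cd1 (cd1 hG)).continuous
  unfold dh; fun_prop

theorem dn_nn (G : ℝ → ℝ) (x : ℝ) : 0 ≤ dn G x := by unfold dn; positivity

theorem dh_nn (b : ℝ) (G : ℝ → ℝ) (x : ℝ) : 0 ≤ dh b G x := by unfold dh; positivity

theorem cont_vw (b : ℝ) : Continuous (vw b) := by unfold vw; fun_prop

/-- Integrating a pointwise inequality up to a total derivative. -/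
theorem int_le {a b : ℝ} (hab : a ≤ b) {f g Φ φ : ℝ → ℝ} (hf : ContinuousOn f (Icc a b))
    (hg : ContinuousOn g (Icc a b)) (hΦ : ContinuousOn Φ (Icc a b))
    (hφ : ∀ x ∈ Ioo a b, HasDerivAt Φ (φ x) x) (h : ∀ x ∈ Ioo a b, f x + φ x ≤ g x) :
    (∫ x in a..b, f x) + (Φ b - Φ a) ≤ ∫ x in a..b, g x := by
  have h1 := sub_le_integral_of_hasDeriv_right_of_le hab hΦ
    (fun x hx => (hφ x hx).hasDerivWithinAt) (φ := fun x => g x - f x)
    ((hg.sub hf).integrableOn_Icc) (fun x hx => by linarith [h x hx])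
  rw [integral_sub (hg.intervalIntegrable_of_Icc hab) (hf.intervalIntegrable_of_Icc hab)] at h1
  linarith

theorem int_mono {a b : ℝ} (hab : a ≤ b) {f g : ℝ → ℝ} (hf : ContinuousOn f (Icc a b))
    (hg : ContinuousOn g (Icc a b)) (h : ∀ x ∈ Ioo a b, f x ≤ g x) :
    (∫ x in a..b, f x) ≤ ∫ x in a..b, g x := by
  have := int_le hab hf hg (Φ := fun _ => 0) (φ := fun _ => 0) continuousOn_const
    (fun x _ => hasDerivAt_const x 0) (fun x hx => by simpa using h x hx)
  simpa using this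

/-- enlarging the interval of integration -/
theorem int_sub {a b c d : ℝ} (hac : a ≤ c) (hcd : c ≤ d) (hdb : d ≤ b) {f : ℝ → ℝ}
    (hf : Continuous f) (h : ∀ x ∈ Icc a b, 0 ≤ f x) :
    (∫ x in c..d, f x) ≤ ∫ x in a..b, f x := by
  have h1 := integral_add_adjacent_intervals (hf.intervalIntegrable a c) (hf.intervalIntegrable c d)
    (μ := volume)
  have h2 := integral_add_adjacent_intervals (hf.intervalIntegrable a d) (hf.intervalIntegrable d b)
    (μ := volume)
  have h3 : 0 ≤ ∫ x in a..c, f x :=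
    integral_nonneg hac fun x hx => h x ⟨hx.1, hx.2.trans (hcd.trans hdb)⟩
  have h4 : 0 ≤ ∫ x in d..b, f x :=
    integral_nonneg hdb fun x hx => h x ⟨hac.trans (hcd.trans hx.1), hx.2⟩
  linarith

/-- Cauchy-Schwarz. -/
theorem cs {a b : ℝ} (hab : a ≤ b) {h F G : ℝ → ℝ} (hh : ContinuousOn h (Icc a b))
    (hF : ContinuousOn F (Icc a b)) (hG : ContinuousOn G (Icc a b))
    (hF0 : ∀ x ∈ Ioo a b, 0 ≤ F x) (hG0 : ∀ x ∈ Ioo a b, 0 ≤ G x)
    (hle : ∀ x ∈ Ioo a b, h x ^ 2 ≤ F x * G x) :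
    (∫ x in a..b, h x) ^ 2 ≤ (∫ x in a..b, F x) * ∫ x in a..b, G x := by
  have key : ∀ t : ℝ, 0 ≤ (∫ x in a..b, F x) * (t * t) + (-2 * ∫ x in a..b, h x) * t
      + ∫ x in a..b, G x := by
    intro t
    have h1 := int_mono hab (f := fun x => 2 * t * h x) (g := fun x => t * t * F x + G x)
      (continuousOn_const.mul hh) ((continuousOn_const.mul hF).add hG) (fun x hx => by
        have h0 := hF0 x hx
        have h1 := hG0 x hx
        have h2 := hle x hx
        rcases h0.eq_or_lt with h3 | h3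
        · rw [← h3] at h2 ⊢
          have : h x = 0 := by nlinarith
          rw [this]; linarith
        · by_contra hc
          push Not at hc
          nlinarith [sq_nonneg (t * F x - h x), mul_pos h3 (sub_pos.2 hc)])
    rw [integral_add ((hF.intervalIntegrable_of_Icc hab).const_mul (t * t))
      (hG.intervalIntegrable_of_Icc hab), intervalIntegral.integral_const_mul,
      intervalIntegral.integral_const_mul] at h1
    linarith
  have := discrim_le_zero key
  unfold discrim at this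
  nlinarith

end Vale.Agent.N264X.P264Z.F
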