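import Vale.Agent.N264X.F.Basic

/-!
# P264, block F: the cutoff
-/

open scoped ContDiff Topology
open Set

noncomputable section

namespace Vale.Agent.N264X.P264Z

open Vale.Agent.P264Z

open F

theorem F.cdI {f : ℝ → ℝ} (hf : ContDiff ℝ ∞ f) (j : ℕ) : ContDiff ℝ ∞ (iteratedDeriv j f) := by
  induction j with
  | zero => simpa using hf
  | succ j ih => rw [iteratedDeriv_succ]; exact cd1 ih

theorem F.hdI {f : ℝ → ℝ} (hf : ContDiff ℝ ∞ f) (j : ℕ) (x : ℝ) :
    HasDerivAt (iteratedDeriv j f) (iteratedDeriv (j + 1) f x) x := by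
  rw [iteratedDeriv_succ]; exact hd (cdI hf j) x

theorem F.cd_st : ContDiff ℝ ∞ Real.smoothTransition := Real.smoothTransition.contDiff

theorem F.cd_cut (B : ℝ) : ContDiff ℝ ∞ (cut B) := by
  unfold cut
  exact cd_st.comp (by fun_prop)

theorem F.cut_iter (B : ℝ) (j : ℕ) : iteratedDeriv j (cut B) =
    fun x => (-1 / B) ^ j * iteratedDeriv j Real.smoothTransition (2 - x / B) := by
  induction j with
  | zero => funext x; simp [cut]
  | succ j ih =>
    rw [iteratedDeriv_succ, ih]
    funext x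
    have h1 : HasDerivAt (fun x : ℝ => 2 - x / B) (-1 / B) x := by
      simpa [neg_div] using ((hasDerivAt_id' x).div_const B).const_sub 2
    have h2 := ((hdI cd_st j (2 - x / B)).comp x h1).const_mul ((-1 / B) ^ j)
    refine h2.deriv.trans ?_
    ring

theorem F.st_iter_zero (j : ℕ) {s : ℝ} (hs : s ≤ 0 ∨ 1 ≤ s) :
    iteratedDeriv (j + 1) Real.smoothTransition s = 0 := by
  have hc : IsClosed {s | iteratedDeriv (j + 1) Real.smoothTransition s = 0} :=
    isClosed_eq (cdI cd_st _).continuous continuous_const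
  rcases hs with hs | hs
  · have h1 : Iio (0 : ℝ) ⊆ {s | iteratedDeriv (j + 1) Real.smoothTransition s = 0} := by
      intro z hz
      have : Real.smoothTransition =ᶠ[𝓝 z] fun _ => 0 := by
        filter_upwards [isOpen_Iio.mem_nhds hz] with w hw
        exact Real.smoothTransition.zero_of_nonpos (le_of_lt hw)
      rw [mem_ofPred_eq, this.iteratedDeriv_eq, iteratedDeriv_const]; simp
    have h2 := hc.closure_subset_iff.2 h1
    rw [closure_Iio] at h2
    exact h2 hs
  · have h1 : Ioi (1 : ℝ) ⊆ {s | iteratedDeriv (j + 1) Real.smoothTransition s = 0} := by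
      intro z hz
      have : Real.smoothTransition =ᶠ[𝓝 z] fun _ => 1 := by
        filter_upwards [isOpen_Ioi.mem_nhds hz] with w hw
        exact Real.smoothTransition.one_of_one_le (le_of_lt hw)
      rw [mem_ofPred_eq, this.iteratedDeriv_eq, iteratedDeriv_const]; simp
    have h2 := hc.closure_subset_iff.2 h1
    rw [closure_Ioi] at h2
    exact h2 hs

theorem F.cut_iter_zero {B : ℝ} (hB : 0 < B) (j : ℕ) {x : ℝ} (hx : x ≤ B ∨ 2 * B ≤ x) :
    iteratedDeriv (j + 1) (cut B) x = 0 := by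
  rw [cut_iter]
  simp only
  rw [st_iter_zero, mul_zero]
  rcases hx with hx | hx
  · right
    have : x / B ≤ 1 := (div_le_one hB).2 hx
    linarith
  · left
    have : 2 ≤ x / B := (le_div_iff₀ hB).2 hx
    linarith

theorem f10 : F10 := by
  have h1 : ∀ j : ℕ, ∃ C : ℝ, ∀ s ∈ Icc (0 : ℝ) 1,
      ‖iteratedDeriv j Real.smoothTransition s‖ ≤ C := fun j =>
    isCompact_Icc.exists_bound_of_continuousOn (cdI cd_st j).continuous.continuousOn
  choose C hC using h1
  have hC0 : ∀ j, 0 ≤ C j := fun j => (norm_nonneg _).trans (hC j 0 (by simp))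
  refine ⟨1 + 2 ^ 6 * ∑ j ∈ Finset.range 7, C j, ?_, ?_⟩
  · have : 0 ≤ ∑ j ∈ Finset.range 7, C j := Finset.sum_nonneg fun j _ => hC0 j
    linarith
  intro B x j hB hx hj
  have hs : C j ≤ ∑ j ∈ Finset.range 7, C j :=
    Finset.single_le_sum (fun j _ => hC0 j) (Finset.mem_range.2 (by omega))
  have hs0 : 0 ≤ ∑ j ∈ Finset.range 7, C j := (hC0 j).trans hs
  rcases j with _ | j
  · simp only [pow_zero, iteratedDeriv_zero, one_mul, cut]
    rw [abs_of_nonneg (Real.smoothTransition.nonneg _)]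
    have := Real.smoothTransition.le_one (2 - x / B)
    linarith
  by_cases hx' : x ≤ B ∨ 2 * B ≤ x
  · rw [cut_iter_zero hB j hx']
    simp only [abs_zero, mul_zero]
    linarith
  push Not at hx'
  rw [cut_iter]
  simp only
  have h2 : x / B ≤ 2 := (div_le_iff₀ hB).2 hx'.2.le
  have h3 : 1 ≤ x / B := (one_le_div hB).2 hx'.1.le
  have h4 := hC (j + 1) (2 - x / B) ⟨by linarith, by linarith⟩
  rw [Real.norm_eq_abs] at h4
  rw [abs_mul, abs_pow, ← mul_assoc, ← mul_pow]
  have h5 : x * |-1 / B| = x / B := by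
    rw [abs_div, abs_of_pos hB]; simp [div_eq_mul_inv]
  rw [h5]
  have h6 : (x / B) ^ (j + 1) ≤ 2 ^ 6 :=
    (pow_le_pow_left₀ (by linarith) h2 _).trans (pow_le_pow_right₀ (by norm_num) hj)
  have h7 : (x / B) ^ (j + 1) * |iteratedDeriv (j + 1) Real.smoothTransition (2 - x / B)|
      ≤ 2 ^ 6 * ∑ j ∈ Finset.range 7, C j := by
    gcongr
    exact h4.trans hs
  linarith

end Vale.Agent.N264X.P264Z
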