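import Vale.Agent.N264X.F.F5
import Vale.Agent.N264X.F.F10

/-!
# P264, block F: the commutator with the cutoff
-/

open scoped ContDiff Topology
open Set MeasureTheory intervalIntegral

noncomputable section

namespace Vale.Agent.N264X.P264Z

open Vale.Agent.P264Z

open F

/-- a monomial in `x` and the derivatives of two functions -/
def F.Tm (f g : ℝ → ℝ) (k i j : ℕ) (x : ℝ) : ℝ :=
  x ^ k * (iteratedDeriv i f x * iteratedDeriv j g x)

section

variable {f g : ℝ → ℝ}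

theorem F.hT (hf : ContDiff ℝ ∞ f) (hg : ContDiff ℝ ∞ g) (k i j : ℕ) (x : ℝ) :
    HasDerivAt (Tm f g k i j) (k * x ^ (k - 1) * (iteratedDeriv i f x * iteratedDeriv j g x)
      + Tm f g k (i + 1) j x + Tm f g k i (j + 1) x) x := by
  refine ((hasDerivAt_pow k x).mul ((hdI hf i x).mul (hdI hg j x))).congr_deriv ?_
  simp only [Tm, Pi.mul_apply]; ring

theorem F.com0 (hf : ContDiff ℝ ∞ f) (hg : ContDiff ℝ ∞ g) :
    (fun x => Lop 7 (fun z => f z * g z) x - f x * Lop 7 g x) = fun x =>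
      180 * Tm f g 0 1 1 x + 90 * Tm f g 0 2 0 x + 60 * Tm f g 1 1 2 x + 60 * Tm f g 1 2 1 x
      + 20 * Tm f g 1 3 0 x + 4 * Tm f g 2 1 3 x + 6 * Tm f g 2 2 2 x + 4 * Tm f g 2 3 1 x
      + 1 * Tm f g 2 4 0 x := by
  have e0 : (fun z => f z * g z) = Tm f g 0 0 0 := by funext z; simp [Tm]
  have e1 : deriv (fun z => f z * g z) = fun x => Tm f g 0 1 0 x + Tm f g 0 0 1 x := by
    funext x; rw [e0, (hT hf hg 0 0 0 x).deriv]; simp
  have e2 : deriv (deriv (fun z => f z * g z)) = fun x =>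
      Tm f g 0 2 0 x + 2 * Tm f g 0 1 1 x + Tm f g 0 0 2 x := by
    funext x; rw [e1]
    refine ((hT hf hg 0 1 0 x).add (hT hf hg 0 0 1 x)).deriv.trans ?_
    simp; ring
  have e3 : deriv (deriv (deriv (fun z => f z * g z))) = fun x =>
      Tm f g 0 3 0 x + 3 * Tm f g 0 2 1 x + 3 * Tm f g 0 1 2 x + Tm f g 0 0 3 x := by
    funext x; rw [e2]
    refine (((hT hf hg 0 2 0 x).add ((hT hf hg 0 1 1 x).const_mul 2)).add
      (hT hf hg 0 0 2 x)).deriv.trans ?_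
    simp; ring
  have e4 : deriv (deriv (deriv (deriv (fun z => f z * g z)))) = fun x =>
      Tm f g 0 4 0 x + 4 * Tm f g 0 3 1 x + 6 * Tm f g 0 2 2 x + 4 * Tm f g 0 1 3 x
        + Tm f g 0 0 4 x := by
    funext x; rw [e3]
    refine ((((hT hf hg 0 3 0 x).add ((hT hf hg 0 2 1 x).const_mul 3)).add
      ((hT hf hg 0 1 2 x).const_mul 3)).add (hT hf hg 0 0 3 x)).deriv.trans ?_
    simp; ring
  funext x
  rw [L_eq (hf.mul hg), L_eq hg, e4, e3, e2]
  simp only [Tm, iteratedDeriv_succ, iteratedDeriv_zero]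
  ring

theorem F.com1 (hf : ContDiff ℝ ∞ f) (hg : ContDiff ℝ ∞ g) :
    deriv (fun x => Lop 7 (fun z => f z * g z) x - f x * Lop 7 g x) = fun x =>
      240 * Tm f g 0 1 2 x + 330 * Tm f g 0 2 1 x + 110 * Tm f g 0 3 0 x + 68 * Tm f g 1 1 3 x
      + 132 * Tm f g 1 2 2 x + 88 * Tm f g 1 3 1 x + 22 * Tm f g 1 4 0 x
      + 4 * Tm f g 2 1 4 x + 10 * Tm f g 2 2 3 x + 10 * Tm f g 2 3 2 x + 5 * Tm f g 2 4 1 x
      + 1 * Tm f g 2 5 0 x := by
  funext x
  rw [com0 hf hg]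
  refine ((((((((((hT hf hg 0 1 1 x).const_mul 180).add
    ((hT hf hg 0 2 0 x).const_mul 90)).add
    ((hT hf hg 1 1 2 x).const_mul 60)).add
    ((hT hf hg 1 2 1 x).const_mul 60)).add
    ((hT hf hg 1 3 0 x).const_mul 20)).add
    ((hT hf hg 2 1 3 x).const_mul 4)).add
    ((hT hf hg 2 2 2 x).const_mul 6)).add
    ((hT hf hg 2 3 1 x).const_mul 4)).add
    ((hT hf hg 2 4 0 x).const_mul 1)).deriv.trans ?_
  simp only [Tm]; push_cast; ring

theorem F.com2 (hf : ContDiff ℝ ∞ f) (hg : ContDiff ℝ ∞ g) :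
    deriv (deriv (fun x => Lop 7 (fun z => f z * g z) x - f x * Lop 7 g x)) = fun x =>
      308 * Tm f g 0 1 3 x + 702 * Tm f g 0 2 2 x + 528 * Tm f g 0 3 1 x
      + 132 * Tm f g 0 4 0 x + 76 * Tm f g 1 1 4 x + 220 * Tm f g 1 2 3 x
      + 240 * Tm f g 1 3 2 x + 120 * Tm f g 1 4 1 x + 24 * Tm f g 1 5 0 x
      + 4 * Tm f g 2 1 5 x + 14 * Tm f g 2 2 4 x + 20 * Tm f g 2 3 3 x + 15 * Tm f g 2 4 2 x
      + 6 * Tm f g 2 5 1 x + 1 * Tm f g 2 6 0 x := by
  funext x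
  rw [com1 hf hg]
  refine (((((((((((((hT hf hg 0 1 2 x).const_mul 240).add
    ((hT hf hg 0 2 1 x).const_mul 330)).add
    ((hT hf hg 0 3 0 x).const_mul 110)).add
    ((hT hf hg 1 1 3 x).const_mul 68)).add
    ((hT hf hg 1 2 2 x).const_mul 132)).add
    ((hT hf hg 1 3 1 x).const_mul 88)).add
    ((hT hf hg 1 4 0 x).const_mul 22)).add
    ((hT hf hg 2 1 4 x).const_mul 4)).add
    ((hT hf hg 2 2 3 x).const_mul 10)).add
    ((hT hf hg 2 3 2 x).const_mul 10)).add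
    ((hT hf hg 2 4 1 x).const_mul 5)).add
    ((hT hf hg 2 5 0 x).const_mul 1)).deriv.trans ?_
  simp only [Tm]; push_cast; ring

end

/-- scale invariant derivatives of the cutoff -/
def F.cc (B : ℝ) (i : ℕ) (x : ℝ) : ℝ := x ^ i * iteratedDeriv i (cut B) x

/-- scale invariant derivatives of `m` -/
def F.nn (m : ℝ → ℝ) (j : ℕ) (x : ℝ) : ℝ := x ^ (j + 1) * iteratedDeriv j m x

variable {B : ℝ} {m : ℝ → ℝ}

theorem F.com_bound0 (hm : ContDiff ℝ ∞ m) {x D : ℝ}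
    (h : ∀ i j, 1 ≤ i → i ≤ 6 → j ≤ 3 → |cc B i x * nn m j x| ≤ D) :
    |x ^ 3 * com B m x| ≤ 425 * D := by
  have e : x ^ 3 * com B m x =
      180 * (cc B 1 x * nn m 1 x) + 90 * (cc B 2 x * nn m 0 x) + 60 * (cc B 1 x * nn m 2 x)
      + 60 * (cc B 2 x * nn m 1 x) + 20 * (cc B 3 x * nn m 0 x) + 4 * (cc B 1 x * nn m 3 x)
      + 6 * (cc B 2 x * nn m 2 x) + 4 * (cc B 3 x * nn m 1 x) + 1 * (cc B 4 x * nn m 0 x) := by
    have := congrFun (com0 (cd_cut B) hm) x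
    unfold com; rw [this]; simp only [Tm, cc, nn]; ring
  rw [e]
  have h11 := abs_le.1 (h 1 1 (by norm_num) (by norm_num) (by norm_num))
  have h12 := abs_le.1 (h 1 2 (by norm_num) (by norm_num) (by norm_num))
  have h13 := abs_le.1 (h 1 3 (by norm_num) (by norm_num) (by norm_num))
  have h20 := abs_le.1 (h 2 0 (by norm_num) (by norm_num) (by norm_num))
  have h21 := abs_le.1 (h 2 1 (by norm_num) (by norm_num) (by norm_num))
  have h22 := abs_le.1 (h 2 2 (by norm_num) (by norm_num) (by norm_num))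
  have h30 := abs_le.1 (h 3 0 (by norm_num) (by norm_num) (by norm_num))
  have h31 := abs_le.1 (h 3 1 (by norm_num) (by norm_num) (by norm_num))
  have h40 := abs_le.1 (h 4 0 (by norm_num) (by norm_num) (by norm_num))
  rw [abs_le]
  constructor
  · linarith [h11.1, h12.1, h13.1, h20.1, h21.1, h22.1, h30.1, h31.1, h40.1]
  · linarith [h11.2, h12.2, h13.2, h20.2, h21.2, h22.2, h30.2, h31.2, h40.2]

theorem F.com_bound1 (hm : ContDiff ℝ ∞ m) {x D : ℝ}
    (h : ∀ i j, 1 ≤ i → i ≤ 6 → j ≤ 5 → |cc B i x * nn m j x| ≤ D) :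
    |x ^ 4 * deriv (com B m) x| ≤ 1020 * D := by
  have e : x ^ 4 * deriv (com B m) x =
      240 * (cc B 1 x * nn m 2 x) + 330 * (cc B 2 x * nn m 1 x) + 110 * (cc B 3 x * nn m 0 x)
      + 68 * (cc B 1 x * nn m 3 x) + 132 * (cc B 2 x * nn m 2 x)
      + 88 * (cc B 3 x * nn m 1 x) + 22 * (cc B 4 x * nn m 0 x) + 4 * (cc B 1 x * nn m 4 x)
      + 10 * (cc B 2 x * nn m 3 x) + 10 * (cc B 3 x * nn m 2 x) + 5 * (cc B 4 x * nn m 1 x)
      + 1 * (cc B 5 x * nn m 0 x) := by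
    have := congrFun (com1 (cd_cut B) hm) x
    unfold com; rw [this]; simp only [Tm, cc, nn]; ring
  rw [e]
  have h12 := abs_le.1 (h 1 2 (by norm_num) (by norm_num) (by norm_num))
  have h13 := abs_le.1 (h 1 3 (by norm_num) (by norm_num) (by norm_num))
  have h14 := abs_le.1 (h 1 4 (by norm_num) (by norm_num) (by norm_num))
  have h21 := abs_le.1 (h 2 1 (by norm_num) (by norm_num) (by norm_num))
  have h22 := abs_le.1 (h 2 2 (by norm_num) (by norm_num) (by norm_num))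
  have h23 := abs_le.1 (h 2 3 (by norm_num) (by norm_num) (by norm_num))
  have h30 := abs_le.1 (h 3 0 (by norm_num) (by norm_num) (by norm_num))
  have h31 := abs_le.1 (h 3 1 (by norm_num) (by norm_num) (by norm_num))
  have h32 := abs_le.1 (h 3 2 (by norm_num) (by norm_num) (by norm_num))
  have h40 := abs_le.1 (h 4 0 (by norm_num) (by norm_num) (by norm_num))
  have h41 := abs_le.1 (h 4 1 (by norm_num) (by norm_num) (by norm_num))
  have h50 := abs_le.1 (h 5 0 (by norm_num) (by norm_num) (by norm_num))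
  rw [abs_le]
  constructor
  · linarith [h12.1, h13.1, h14.1, h21.1, h22.1, h23.1, h30.1, h31.1, h32.1, h40.1, h41.1, h50.1]
  · linarith [h12.2, h13.2, h14.2, h21.2, h22.2, h23.2, h30.2, h31.2, h32.2, h40.2, h41.2, h50.2]

theorem F.com_bound2 (hm : ContDiff ℝ ∞ m) {x D : ℝ}
    (h : ∀ i j, 1 ≤ i → i ≤ 6 → j ≤ 5 → |cc B i x * nn m j x| ≤ D) :
    |x ^ 5 * deriv (deriv (com B m)) x| ≤ 2410 * D := by
  have e : x ^ 5 * deriv (deriv (com B m)) x =
      308 * (cc B 1 x * nn m 3 x) + 702 * (cc B 2 x * nn m 2 x) + 528 * (cc B 3 x * nn m 1 x)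
      + 132 * (cc B 4 x * nn m 0 x) + 76 * (cc B 1 x * nn m 4 x)
      + 220 * (cc B 2 x * nn m 3 x) + 240 * (cc B 3 x * nn m 2 x)
      + 120 * (cc B 4 x * nn m 1 x) + 24 * (cc B 5 x * nn m 0 x) + 4 * (cc B 1 x * nn m 5 x)
      + 14 * (cc B 2 x * nn m 4 x) + 20 * (cc B 3 x * nn m 3 x) + 15 * (cc B 4 x * nn m 2 x)
      + 6 * (cc B 5 x * nn m 1 x) + 1 * (cc B 6 x * nn m 0 x) := by
    have := congrFun (com2 (cd_cut B) hm) x
    unfold com; rw [this]; simp only [Tm, cc, nn]; ring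
  rw [e]
  have h13 := abs_le.1 (h 1 3 (by norm_num) (by norm_num) (by norm_num))
  have h14 := abs_le.1 (h 1 4 (by norm_num) (by norm_num) (by norm_num))
  have h15 := abs_le.1 (h 1 5 (by norm_num) (by norm_num) (by norm_num))
  have h22 := abs_le.1 (h 2 2 (by norm_num) (by norm_num) (by norm_num))
  have h23 := abs_le.1 (h 2 3 (by norm_num) (by norm_num) (by norm_num))
  have h24 := abs_le.1 (h 2 4 (by norm_num) (by norm_num) (by norm_num))
  have h31 := abs_le.1 (h 3 1 (by norm_num) (by norm_num) (by norm_num))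
  have h32 := abs_le.1 (h 3 2 (by norm_num) (by norm_num) (by norm_num))
  have h33 := abs_le.1 (h 3 3 (by norm_num) (by norm_num) (by norm_num))
  have h40 := abs_le.1 (h 4 0 (by norm_num) (by norm_num) (by norm_num))
  have h41 := abs_le.1 (h 4 1 (by norm_num) (by norm_num) (by norm_num))
  have h42 := abs_le.1 (h 4 2 (by norm_num) (by norm_num) (by norm_num))
  have h50 := abs_le.1 (h 5 0 (by norm_num) (by norm_num) (by norm_num))
  have h51 := abs_le.1 (h 5 1 (by norm_num) (by norm_num) (by norm_num))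
  have h60 := abs_le.1 (h 6 0 (by norm_num) (by norm_num) (by norm_num))
  rw [abs_le]
  constructor
  · linarith [h13.1, h14.1, h15.1, h22.1, h23.1, h24.1, h31.1, h32.1, h33.1, h40.1, h41.1, h42.1
      , h50.1, h51.1, h60.1]
  · linarith [h13.2, h14.2, h15.2, h22.2, h23.2, h24.2, h31.2, h32.2, h33.2, h40.2, h41.2, h42.2
      , h50.2, h51.2, h60.2]

theorem F.cd_com (hm : ContDiff ℝ ∞ m) : ContDiff ℝ ∞ (com B m) :=
  (cdL ((cd_cut B).mul hm)).sub ((cd_cut B).mul (cdL hm))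

theorem F.com_zero (hB : 0 < B) (hm : ContDiff ℝ ∞ m) {x : ℝ} (hx0 : 0 < x)
    (hx : x ≤ B ∨ 2 * B ≤ x) :
    com B m x = 0 ∧ deriv (com B m) x = 0 ∧ deriv (deriv (com B m)) x = 0 := by
  have h : ∀ i j, 1 ≤ i → |cc B i x * nn m j x| ≤ 0 := by
    intro i j hi
    obtain ⟨i, rfl⟩ := Nat.exists_eq_add_of_le' hi
    simp [cc, cut_iter_zero hB i hx]
  have h0 := com_bound0 (B := B) hm (fun i j hi _ _ => h i j hi)
  have h1 := com_bound1 (B := B) hm (fun i j hi _ _ => h i j hi)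
  have h2 := com_bound2 (B := B) hm (fun i j hi _ _ => h i j hi)
  rw [mul_zero, abs_nonpos_iff, mul_eq_zero] at h0 h1 h2
  exact ⟨h0.resolve_left (by positivity), h1.resolve_left (by positivity),
    h2.resolve_left (by positivity)⟩

theorem F.int_supp {b : ℝ} (hB : 0 < B) (hb : 2 * B ≤ b) {f : ℝ → ℝ} (hf : Continuous f)
    (h : ∀ x, 0 < x → x ≤ B ∨ 2 * B ≤ x → f x = 0) :
    (∫ x in (0 : ℝ)..b, f x) ≤ ∫ x in B..2 * B, f x := by
  have h1 := integral_add_adjacent_intervals (hf.intervalIntegrable 0 B)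
    (hf.intervalIntegrable B (2 * B)) (μ := volume)
  have h2 := integral_add_adjacent_intervals (hf.intervalIntegrable 0 (2 * B))
    (hf.intervalIntegrable (2 * B) b) (μ := volume)
  have h3 := int_mono hB.le (g := fun _ => 0) hf.continuousOn continuousOn_const
    (fun x hx => (h x hx.1 (Or.inl hx.2.le)).le)
  have h4 := int_mono hb (g := fun _ => 0) hf.continuousOn continuousOn_const
    (fun x hx => (h x (by linarith [hx.1]) (Or.inr hx.1.le)).le)
  simp only [intervalIntegral.integral_zero] at h3 h4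
  linarith

theorem F.nn_bound (hm : ContDiff ℝ ∞ m) {x N : ℝ} (h : ∀ j ≤ 3, |nn m j x| ≤ N) :
    ∀ j ≤ 5, |nn m j x| ≤ 6000 * (N + |x ^ 3 * Lop 7 m x| + |x ^ 4 * deriv (Lop 7 m) x|) := by
  have hN : 0 ≤ N := (abs_nonneg _).trans (h 0 (by norm_num))
  have a1 := abs_nonneg (x ^ 3 * Lop 7 m x)
  have a2 := abs_nonneg (x ^ 4 * deriv (Lop 7 m) x)
  have e4 : nn m 4 x = x ^ 3 * Lop 7 m x - 20 * nn m 3 x - 90 * nn m 2 x := by
    rw [L_eq hm]; simp only [nn, iteratedDeriv_succ, iteratedDeriv_zero]; ring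
  have e5 : nn m 5 x = x ^ 4 * deriv (Lop 7 m) x - 22 * nn m 4 x - 110 * nn m 3 x := by
    rw [L1_eq hm]; simp only [nn, iteratedDeriv_succ, iteratedDeriv_zero]; ring
  have h2 := abs_le.1 (h 2 (by norm_num))
  have h3 := abs_le.1 (h 3 (by norm_num))
  have b1 := abs_le.1 (le_refl |x ^ 3 * Lop 7 m x|)
  have b2 := abs_le.1 (le_refl |x ^ 4 * deriv (Lop 7 m) x|)
  intro j hj
  by_cases hj3 : j ≤ 3
  · linarith [h j hj3]
  · have : j = 4 ∨ j = 5 := by omega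
    rcases this with rfl | rfl
    · rw [e4, abs_le]; constructor <;> linarith [h2.1, h2.2, h3.1, h3.2, b1.1, b1.2]
    · rw [e5, e4, abs_le]
      constructor <;> linarith [h2.1, h2.2, h3.1, h3.2, b1.1, b1.2, b2.1, b2.2]

theorem F.alg11 {x B K N q q' v d0 d1 d2 q2 : ℝ} (hB : 0 < B) (hx : B ≤ x) (hv : 1 ≤ 4 * v ^ 2)
    (h0 : |x ^ 3 * d0| ≤ K * (N + |x ^ 3 * q| + |x ^ 4 * q'|))
    (h1 : |x ^ 4 * d1| ≤ K * (N + |x ^ 3 * q| + |x ^ 4 * q'|))
    (h2 : |x ^ 5 * d2| ≤ K * (N + |x ^ 3 * q| + |x ^ 4 * q'|)) :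
    x ^ 2 * (x ^ 4 * d2 ^ 2 + x ^ 2 * d1 ^ 2 + d0 ^ 2) ≤ 9 * K ^ 2 * N ^ 2 / B ^ 4
      + 36 * K ^ 2 / B * (x ^ 3 * (x ^ 4 * v ^ 4 * q2 ^ 2 + x ^ 2 * v ^ 2 * q' ^ 2 + q ^ 2)) := by
  have hx0 : 0 < x := hB.trans_le hx
  set R := N + |x ^ 3 * q| + |x ^ 4 * q'| with hR
  have s0 : (x ^ 3 * d0) ^ 2 ≤ (K * R) ^ 2 := by rw [← sq_abs]; gcongr
  have s1 : (x ^ 4 * d1) ^ 2 ≤ (K * R) ^ 2 := by rw [← sq_abs]; gcongr
  have s2 : (x ^ 5 * d2) ^ 2 ≤ (K * R) ^ 2 := by rw [← sq_abs]; gcongr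
  have sR : R ^ 2 ≤ 3 * (N ^ 2 + (x ^ 3 * q) ^ 2 + (x ^ 4 * q') ^ 2) := by
    rw [hR, ← sq_abs (x ^ 3 * q), ← sq_abs (x ^ 4 * q')]
    nlinarith [sq_nonneg (N - |x ^ 3 * q|), sq_nonneg (N - |x ^ 4 * q'|),
      sq_nonneg (|x ^ 3 * q| - |x ^ 4 * q'|)]
  have t1 : x ^ 2 * (x ^ 4 * d2 ^ 2 + x ^ 2 * d1 ^ 2 + d0 ^ 2)
      ≤ 9 * K ^ 2 * (N ^ 2 + (x ^ 3 * q) ^ 2 + (x ^ 4 * q') ^ 2) / x ^ 4 := by
    rw [le_div_iff₀ (by positivity)]
    have := mul_le_mul_of_nonneg_left sR (sq_nonneg K)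
    linarith [show x ^ 2 * (x ^ 4 * d2 ^ 2 + x ^ 2 * d1 ^ 2 + d0 ^ 2) * x ^ 4
      = (x ^ 3 * d0) ^ 2 + (x ^ 4 * d1) ^ 2 + (x ^ 5 * d2) ^ 2 by ring, mul_pow K R 2]
  have t2 : 9 * K ^ 2 * (N ^ 2 + (x ^ 3 * q) ^ 2 + (x ^ 4 * q') ^ 2) / x ^ 4
      = 9 * K ^ 2 * N ^ 2 / x ^ 4 + 9 * K ^ 2 / x * (x ^ 3 * (x ^ 2 * q' ^ 2 + q ^ 2)) := by
    field_simp; ring
  have t3 : 9 * K ^ 2 * N ^ 2 / x ^ 4 ≤ 9 * K ^ 2 * N ^ 2 / B ^ 4 := by gcongr
  have t4 : x ^ 2 * q' ^ 2 + q ^ 2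
      ≤ 4 * (x ^ 4 * v ^ 4 * q2 ^ 2 + x ^ 2 * v ^ 2 * q' ^ 2 + q ^ 2) := by
    have := mul_le_mul_of_nonneg_left hv (by positivity : 0 ≤ x ^ 2 * q' ^ 2)
    have : 0 ≤ x ^ 4 * v ^ 4 * q2 ^ 2 := by positivity
    nlinarith [sq_nonneg q]
  have t5 : 9 * K ^ 2 / x * (x ^ 3 * (x ^ 2 * q' ^ 2 + q ^ 2)) ≤ 9 * K ^ 2 / B
      * (x ^ 3 * (4 * (x ^ 4 * v ^ 4 * q2 ^ 2 + x ^ 2 * v ^ 2 * q' ^ 2 + q ^ 2))) := by gcongr
  rw [t2] at t1
  refine (t1.trans (add_le_add t3 t5)).trans_eq ?_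
  ring

theorem f11 : F11 := by
  obtain ⟨C₀, hC₀, h10⟩ := f10
  obtain ⟨C₅, hC₅, h5⟩ := f5
  set K : ℝ := 2410 * (C₀ * 6000) with hK
  have hK1 : 425 * C₀ ≤ K := by rw [hK]; linarith
  refine ⟨36 * K ^ 2 * (C₅ + 1), by positivity, ?_⟩
  intro b B m hB hb hm h0 h1
  have hb0 : 0 < b := by linarith
  have hE := En_nn (m := m) 3 hb0.le
  set E := En 3 b (vw b) m with hEdef
  set N := Real.sqrt (C₅ * E) with hN
  have hN0 : 0 ≤ N := Real.sqrt_nonneg _
  have hN2 : N ^ 2 = C₅ * E := Real.sq_sqrt (by positivity)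
  have kc := (cd_com (B := B) hm).continuous
  have kd := cont_dn (cd_com (B := B) hm)
  have kh := cont_dh b (cdL hm)
  have hcc : ∀ x ∈ Ioo B (2 * B), ∀ i ≤ 6, |cc B i x| ≤ C₀ := by
    intro x hx i hi
    have hx0 : 0 < x := hB.trans hx.1
    rw [cc, abs_mul, abs_of_nonneg (by positivity)]
    exact h10 B x i hB hx0.le hi
  have hnn : ∀ x ∈ Ioo B (2 * B), ∀ j ≤ 3, |nn m j x| ≤ N := by
    intro x hx j hj
    have hx0 : 0 < x := hB.trans hx.1
    obtain ⟨g0, g1, g2, g3⟩ := h5 b m hb0 hm h0 h1 x ⟨hx0.le, by linarith [hx.2]⟩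
    refine Real.abs_le_sqrt ?_
    have hv : vw b x ^ 2 ≤ 1 := by
      have h2 : 0 ≤ x / b := by positivity
      have h3 : x / b ≤ 1 := by rw [div_le_one hb0]; linarith [hx.2]
      unfold vw; nlinarith
    interval_cases j
    · simp only [nn, iteratedDeriv_zero, zero_add, pow_one]
      have := mul_le_mul_of_nonneg_left hv (by positivity : 0 ≤ C₅ * E)
      linarith
    · simpa only [nn, iteratedDeriv_succ, iteratedDeriv_zero] using g1
    · simpa only [nn, iteratedDeriv_succ, iteratedDeriv_zero] using g2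
    · simpa only [nn, iteratedDeriv_succ, iteratedDeriv_zero] using g3 (by linarith [hx.2])
  constructor
  · refine (int_supp hB (by linarith) (by fun_prop) fun x hx0 hx => by
      rw [(com_zero hB hm hx0 hx).1]; ring).trans ?_
    refine (int_mono (by linarith) (g := fun _ => K ^ 2 * N ^ 2 / B ^ 2) (by fun_prop) (by fun_prop)
      fun x hx => ?_).trans ?_
    · have hx0 : 0 < x := hB.trans hx.1
      have h2 := com_bound0 (B := B) hm (x := x) (D := C₀ * N) (fun i j _ hi hj => by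
        rw [abs_mul]
        exact mul_le_mul (hcc x hx i hi) (hnn x hx j hj) (abs_nonneg _) (by linarith))
      have h3 : |x ^ 3 * com B m x| ≤ K * N := h2.trans (by rw [← mul_assoc]; gcongr)
      have h4 : (x ^ 3 * com B m x) ^ 2 ≤ (K * N) ^ 2 := by rw [← sq_abs]; gcongr
      calc _ = (x ^ 3 * com B m x) ^ 2 / x ^ 2 := by field_simp
        _ ≤ (K * N) ^ 2 / B ^ 2 := by gcongr; exact hx.1.le
        _ = _ := by ring
    · rw [intervalIntegral.integral_const, smul_eq_mul, hN2]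
      calc _ = K ^ 2 * C₅ / B * E := by field_simp; ring
        _ ≤ _ := by
          gcongr ?_ / _ * _
          nlinarith [sq_nonneg K, mul_nonneg (sq_nonneg K) hC₅.le]
  · unfold Dn
    refine (int_supp hB (by linarith) (by fun_prop) fun x hx0 hx => by
      obtain ⟨g0, g1, g2⟩ := com_zero hB hm hx0 hx
      simp [dn, g0, g1, g2]).trans ?_
    refine (int_mono (by linarith) (g := fun x => 9 * K ^ 2 * N ^ 2 / B ^ 4
      + 36 * K ^ 2 / B * (x ^ 3 * dh b (Lop 7 m) x)) (by fun_prop) (by fun_prop)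
      fun x hx => ?_).trans ?_
    · have hx0 : 0 < x := hB.trans hx.1
      have h2 := nn_bound hm (hnn x hx)
      set R := N + |x ^ 3 * Lop 7 m x| + |x ^ 4 * deriv (Lop 7 m) x| with hR
      have hR0 : 0 ≤ R := by positivity
      have h3 : ∀ i j, 1 ≤ i → i ≤ 6 → j ≤ 5 → |cc B i x * nn m j x| ≤ C₀ * (6000 * R) :=
        fun i j _ hi hj => by
          rw [abs_mul]
          exact mul_le_mul (hcc x hx i hi) (h2 j hj) (abs_nonneg _) (by linarith)
      have hD : 0 ≤ C₀ * (6000 * R) := by positivity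
      have eK : K * R = 2410 * (C₀ * (6000 * R)) := by rw [hK]; ring
      have g0 := com_bound0 (B := B) hm (fun i j h1 h2 h => h3 i j h1 h2 (by omega))
      have g1 := com_bound1 (B := B) hm h3
      have g2 := com_bound2 (B := B) hm h3
      exact alg11 (K := K) (v := vw b x) hB hx.1.le (vw_half hb0 (by linarith [hx.2]))
        (by rw [← hR, eK]; linarith) (by rw [← hR, eK]; linarith) (by rw [← hR, eK]; linarith)
    · rw [integral_add (Continuous.intervalIntegrable (by fun_prop) _ _)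
        (Continuous.intervalIntegrable (by fun_prop) _ _), intervalIntegral.integral_const,
        intervalIntegral.integral_const_mul, smul_eq_mul, hN2]
      have h2 := int_sub hB.le (by linarith : B ≤ 2 * B) (by linarith : 2 * B ≤ b)
        (f := fun x => x ^ 3 * dh b (Lop 7 m) x) (by fun_prop)
        (fun x hx => mul_nonneg (pow_nonneg hx.1 3) (dh_nn _ _ _))
      have h3 : 0 ≤ ∫ x in B..2 * B, x ^ 3 * dh b (Lop 7 m) x :=
        integral_nonneg (by linarith) fun x hx =>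
          mul_nonneg (pow_nonneg (hB.le.trans hx.1) 3) (dh_nn _ _ _)
      refine add_le_add ?_ ?_
      · calc _ = 9 * K ^ 2 * C₅ / B ^ 3 * E := by field_simp; ring
          _ ≤ _ := by
            gcongr ?_ / _ * _
            nlinarith [sq_nonneg K, mul_nonneg (sq_nonneg K) hC₅.le]
      · unfold Dh
        exact mul_le_mul (div_le_div_of_nonneg_right
          (by nlinarith [sq_nonneg K, mul_nonneg (sq_nonneg K) hC₅.le]) hB.le) h2 h3
          (by positivity)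

end Vale.Agent.N264X.P264Z
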