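import Vale.Agent.N264X.F.Basic

/-!
# P264, block F: the Hardy inequality at the degenerate end
-/

open scoped ContDiff Topology
open Set MeasureTheory intervalIntegral

noncomputable section

namespace Vale.Agent.N264X.P264Z

open Vale.Agent.P264Z

open F

theorem F.cont_dslope {f : ℝ → ℝ} (hf : ContDiff ℝ ∞ f) (b : ℝ) : Continuous (dslope f b) := by
  rw [continuous_iff_continuousAt]
  intro x
  by_cases h : x = b
  · rw [h]; exact continuousAt_dslope_same.2 (hd hf b).differentiableAt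
  · exact (continuousAt_dslope_of_ne h).2 hf.continuous.continuousAt

theorem F.eq_dslope {f : ℝ → ℝ} {b : ℝ} (h : f b = 0) (x : ℝ) : f x = (x - b) * dslope f b x := by
  have := sub_smul_dslope f b x
  rw [h, sub_zero, smul_eq_mul] at this
  exact this.symm

theorem F.alg4a {N w ρ α β q0 q1 q2 w0 w1 w2 : ℝ} (hN1 : 1 ≤ N) (hρ : |ρ| ≤ N) (ha : |α| ≤ N)
    (hb : |β| ≤ N) (hw0 : |w0| ≤ w) (hw1 : |w1| ≤ w) (hw2 : |w2| ≤ w)
    (e0 : q0 = ρ * w0) (e1 : q1 = ρ * w1 - 2 * α * q0)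
    (e2 : q2 = ρ * w2 - 2 * (α ^ 2 + β) * q0 - 4 * α * q1) :
    q2 ^ 2 + q1 ^ 2 + q0 ^ 2 ≤ 300 * (N ^ 6 * w ^ 2) := by
  have hwn : 0 ≤ w := (abs_nonneg _).trans hw0
  have hNN : N ≤ N ^ 2 := by nlinarith
  have hNNN : N ^ 2 ≤ N ^ 3 := by nlinarith
  have b0 : |q0| ≤ N * w := by rw [e0, abs_mul]; gcongr
  have b1 : |q1| ≤ 3 * N ^ 2 * w := by
    rw [e1]
    refine (abs_sub _ _).trans ?_
    rw [abs_mul, abs_mul, abs_mul, abs_two]
    have t1 : |ρ| * |w1| ≤ N * w := by gcongr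
    have t2 : 2 * |α| * |q0| ≤ 2 * N * (N * w) := by gcongr
    have t3 := mul_le_mul_of_nonneg_right hNN hwn
    linarith
  have b2 : |q2| ≤ 17 * N ^ 3 * w := by
    rw [e2]
    refine (abs_sub _ _).trans ((add_le_add_left (abs_sub _ _) _).trans ?_)
    rw [abs_mul, abs_mul, abs_mul, abs_mul, abs_mul, abs_two,
      abs_of_nonneg (by norm_num : (0 : ℝ) ≤ 4)]
    have t0 : |α ^ 2 + β| ≤ 2 * N ^ 2 := by
      refine (abs_add_le _ _).trans ?_
      have : |α ^ 2| ≤ N ^ 2 := by rw [abs_pow]; gcongr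
      linarith
    have t1 : |ρ| * |w2| ≤ N * w := by gcongr
    have t2 : 2 * |α ^ 2 + β| * |q0| ≤ 2 * (2 * N ^ 2) * (N * w) := by gcongr
    have t3 : 4 * |α| * |q1| ≤ 4 * N * (3 * N ^ 2 * w) := by gcongr
    have t4 := mul_le_mul_of_nonneg_right (hNN.trans hNNN) hwn
    linarith
  have b0' : |q0| ≤ N ^ 3 * w := b0.trans (by gcongr; exact hNN.trans hNNN)
  have b1' : |q1| ≤ 3 * (N ^ 3 * w) := b1.trans (by rw [mul_assoc]; gcongr)
  have s0 : q0 ^ 2 ≤ (N ^ 3 * w) ^ 2 := by rw [← sq_abs]; gcongr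
  have s1 : q1 ^ 2 ≤ (3 * (N ^ 3 * w)) ^ 2 := by rw [← sq_abs]; gcongr
  have s2 : q2 ^ 2 ≤ (17 * N ^ 3 * w) ^ 2 := by rw [← sq_abs]; gcongr
  have t' : 0 ≤ N ^ 6 * w ^ 2 := by positivity
  linarith [show (N ^ 3 * w) ^ 2 = N ^ 6 * w ^ 2 by ring,
    show (3 * (N ^ 3 * w)) ^ 2 = 9 * (N ^ 6 * w ^ 2) by ring,
    show (17 * N ^ 3 * w) ^ 2 = 289 * (N ^ 6 * w ^ 2) by ring]

theorem F.alg4 {M r v a1 a2 q0 q1 q2 w0 w1 w2 : ℝ} (hM : 1 ≤ M) (hr0 : 0 ≤ r) (hr : r ≤ M)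
    (hv0 : 0 ≤ v) (hv : v ≤ 1) (h1 : |a1| ≤ M) (h2 : |a2| ≤ M)
    (e0 : q0 = r ^ 2 * w0) (e1 : q1 = r ^ 2 * w1 - 2 * (a1 * r) * q0)
    (e2 : q2 = r ^ 2 * w2 - 2 * ((a1 * r) ^ 2 + a2 * r * v) * q0 - 4 * (a1 * r) * q1) :
    q2 ^ 2 + q1 ^ 2 + q0 ^ 2 ≤ 10 ^ 3 * M ^ 12 * (w2 ^ 2 + w1 ^ 2 + w0 ^ 2) := by
  have hN1 : 1 ≤ M ^ 2 := one_le_pow₀ hM
  have hM0 : 0 ≤ M := by linarith
  have hr2 : |r ^ 2| ≤ M ^ 2 := by rw [abs_of_nonneg (sq_nonneg r)]; gcongr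
  have ha : |a1 * r| ≤ M ^ 2 := by
    rw [abs_mul, abs_of_nonneg hr0, sq]; gcongr
  have hb : |a2 * r * v| ≤ M ^ 2 := by
    rw [abs_mul, abs_mul, abs_of_nonneg hr0, abs_of_nonneg hv0, sq]
    calc _ ≤ M * M * 1 := by gcongr
      _ = _ := by ring
  have key := alg4a (w := |w0| + |w1| + |w2|) hN1 hr2 ha hb
    (by linarith [abs_nonneg w1, abs_nonneg w2]) (by linarith [abs_nonneg w0, abs_nonneg w2])
    (by linarith [abs_nonneg w1, abs_nonneg w0]) e0 e1 e2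
  have sw : (|w0| + |w1| + |w2|) ^ 2 ≤ 3 * (w2 ^ 2 + w1 ^ 2 + w0 ^ 2) := by
    rw [← sq_abs w0, ← sq_abs w1, ← sq_abs w2]
    nlinarith [sq_nonneg (|w0| - |w1|), sq_nonneg (|w0| - |w2|), sq_nonneg (|w1| - |w2|)]
  have e12 : (M ^ 2) ^ 6 = M ^ 12 := by ring
  rw [e12] at key
  have hN6 : 0 ≤ M ^ 12 := by positivity
  have t := mul_le_mul_of_nonneg_left sw hN6
  have t' : 0 ≤ M ^ 12 * (w2 ^ 2 + w1 ^ 2 + w0 ^ 2) := by positivity
  linarith

theorem F.alg4b {N K t c w0 w1 w2 D : ℝ} (hN : 0 ≤ N) (ht0 : 0 ≤ t) (hc : 0 ≤ c)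
    (hK : K = 8 * 10 ^ 3 * N)
    (a : D ≤ 10 ^ 3 * N * (w2 ^ 2 + ((1 + t) * w1) ^ 2 + ((1 + t) ^ 2 * w0) ^ 2)) :
    D + (-(K * (c * (4 * (t * w1 ^ 2) + t ^ 3 * w0 ^ 2)))
      - K * (8 * (t * w1) * w2 + 4 * (t * w1) ^ 2 + 2 * (t ^ 2 * w0) * (t * w1)
        + 3 * (t ^ 2 * w0) ^ 2)) ≤ 10 ^ 5 * N * (w2 ^ 2 + w1 ^ 2 + w0 ^ 2) := by
  have hK0 : 0 ≤ K := by rw [hK]; positivity
  have n1 : 0 ≤ K * (c * (4 * (t * w1 ^ 2) + t ^ 3 * w0 ^ 2)) := by positivity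
  have n2 : ((1 + t) * w1) ^ 2 ≤ 2 * w1 ^ 2 + 2 * (t * w1) ^ 2 := by
    nlinarith [sq_nonneg (w1 - t * w1)]
  have n3 : ((1 + t) ^ 2 * w0) ^ 2 ≤ 8 * w0 ^ 2 + 8 * (t ^ 2 * w0) ^ 2 := by
    have : (1 + t) ^ 4 ≤ 8 + 8 * t ^ 4 := by
      nlinarith [sq_nonneg (t - 1), sq_nonneg (t ^ 2 - 1), mul_nonneg ht0 (sq_nonneg (t - 1))]
    nlinarith [mul_le_mul_of_nonneg_right this (sq_nonneg w0)]
  generalize t * w1 = j1 at *
  generalize t ^ 2 * w0 = j0 at *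
  have n4 : D ≤ K * (w2 ^ 2 + w1 ^ 2 + w0 ^ 2 + j1 ^ 2 + j0 ^ 2) := by
    refine a.trans ?_
    rw [hK]
    have : w2 ^ 2 + ((1 + t) * w1) ^ 2 + ((1 + t) ^ 2 * w0) ^ 2
        ≤ 8 * (w2 ^ 2 + w1 ^ 2 + w0 ^ 2 + j1 ^ 2 + j0 ^ 2) := by
      linarith [sq_nonneg w2, sq_nonneg w1, sq_nonneg j1]
    linarith [mul_le_mul_of_nonneg_left this hN]
  have n5 : w2 ^ 2 + w1 ^ 2 + w0 ^ 2 + j1 ^ 2 + j0 ^ 2
      - (8 * j1 * w2 + 4 * j1 ^ 2 + 2 * j0 * j1 + 3 * j0 ^ 2)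
      ≤ 9 * (w2 ^ 2 + w1 ^ 2 + w0 ^ 2) := by
    nlinarith [sq_nonneg (j1 + 2 * w2), sq_nonneg (j0 + j1), sq_nonneg w1,
      sq_nonneg w0, sq_nonneg j0]
  have n6 := mul_le_mul_of_nonneg_left n5 hK0
  have n7 : 0 ≤ N * (w2 ^ 2 + w1 ^ 2 + w0 ^ 2) := by positivity
  have n8 : K * (9 * (w2 ^ 2 + w1 ^ 2 + w0 ^ 2))
      = 72 * 10 ^ 3 * (N * (w2 ^ 2 + w1 ^ 2 + w0 ^ 2)) := by rw [hK]; ring
  linarith

theorem f4 : F4 := by
  intro M hM
  refine ⟨10 ^ 5 * M ^ 12, by positivity, ?_⟩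
  intro p b y Q _ hb hy hQ h
  set W : ℝ → ℝ := fun x => y x ^ 2 * Q x with hWdef
  have hW : ContDiff ℝ ∞ W := by rw [hWdef]; fun_prop
  have hyy : ContDiff ℝ ∞ fun x => y x * y x := hy.mul hy
  have hW' : W = fun x => (y x * y x) * Q x := by funext x; rw [hWdef]; ring
  have eW1 : ∀ x, deriv W x = 2 * y x * deriv y x * Q x + y x ^ 2 * deriv Q x := by
    intro x; rw [hW', deriv_mul' hyy hQ, deriv_mul' hy hy]; ring
  have eW2 : ∀ x, deriv (deriv W) x = 2 * (deriv y x ^ 2 + y x * deriv (deriv y) x) * Q x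
      + 4 * y x * deriv y x * deriv Q x + y x ^ 2 * deriv (deriv Q) x := by
    intro x; rw [hW', deriv2_mul' hyy hQ, deriv2_mul' hy hy, deriv_mul' hy hy]; ring
  have hyb : y b = 0 := by
    obtain ⟨h1, h2, -⟩ := h b ⟨hb.le, le_rfl⟩
    have : vw b b = 0 := by unfold vw; field_simp; ring
    rw [this] at h1 h2
    simp only [zero_div, mul_zero] at h1 h2
    exact le_antisymm h2 h1
  have hW1b : deriv W b = 0 := by rw [eW1, hyb]; ring
  set U1 := dslope (deriv W) b with hU1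
  set κ := dslope y b with hκ
  have kU1 : Continuous U1 := cont_dslope (cd1 hW) b
  have kκ : Continuous κ := cont_dslope hy b
  have kQ := hQ.continuous
  have kd := cont_dn hW
  have kh := cont_dh b hQ
  set K : ℝ := 8 * 10 ^ 3 * M ^ 12 with hK
  have hK0 : 0 ≤ K := by positivity
  unfold Dh Dn
  rw [← intervalIntegral.integral_const_mul]
  have key := int_le hb.le (f := fun x => x ^ p * dh b Q x)
    (g := fun x => 10 ^ 5 * M ^ 12 * (x ^ p * dn W x))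
    (Φ := fun x => -(4 * K) * (x ^ (p + 4) * (U1 x ^ 2 * (b - x)))
      - K * (x ^ (p + 4) * ((κ x ^ 2 * Q x) ^ 2 * (b - x))))
    (φ := fun x => -(4 * K) * ((p + 4) * x ^ (p + 3) * (deriv W x ^ 2 / (b - x))
        + x ^ (p + 4) * (2 * deriv W x * deriv (deriv W) x / (b - x) + deriv W x ^ 2 / (b - x) ^ 2))
      - K * ((p + 4) * x ^ (p + 3) * (W x ^ 2 / (b - x) ^ 3)
        + x ^ (p + 4) * (2 * W x * deriv W x / (b - x) ^ 3 + 3 * W x ^ 2 / (b - x) ^ 4)))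
    (by fun_prop) (by fun_prop) (by fun_prop)
    (fun x hx => by
      have hu : b - x ≠ 0 := (sub_pos.2 hx.2).ne'
      have du : HasDerivAt (fun x => b - x) (-1) x := (hasDerivAt_id' x).const_sub b
      have d1 := (((hasDerivAt_pow (p + 4) x).mul (((hd (cd1 hW) x).pow 2).div du hu)).const_mul
        (-(4 * K))).sub (((hasDerivAt_pow (p + 4) x).mul (((hd hW x).pow 2).div (du.pow 3)
        (pow_ne_zero 3 hu))).const_mul K)
      refine (d1.congr_of_eventuallyEq ?_).congr_deriv ?_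
      · filter_upwards [isOpen_Iio.mem_nhds hx.2] with z hz
        have hz' : b - z ≠ 0 := (sub_pos.2 hz).ne'
        have t1 : deriv W z = (z - b) * U1 z := eq_dslope hW1b z
        have t2 : W z = ((z - b) * κ z) ^ 2 * Q z := by rw [← eq_dslope hyb z]
        simp only [Pi.sub_apply, Pi.mul_apply, Pi.div_apply, Pi.pow_apply]
        rw [t1, t2]
        field_simp
        ring
      · simp only [Pi.div_apply, Pi.pow_apply, Nat.add_succ_sub_one]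
        push_cast
        field_simp
        ring)
    (fun x hx => by
      have hx0 : 0 < x := hx.1
      have hu : 0 < b - x := sub_pos.2 hx.2
      obtain ⟨g1, g2, g3, g4⟩ := h x (Ioo_subset_Icc_self hx)
      have hv : vw b x = (b - x) / b := by unfold vw; field_simp
      have hv0 : 0 < vw b x := by rw [hv]; positivity
      have hv1 : vw b x ≤ 1 := by rw [hv, div_le_one hb]; linarith
      have hy0 : 0 < y x := lt_of_lt_of_le (by positivity) g1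
      have hr : vw b x / y x ≤ M := by
        rw [div_le_iff₀ hy0]; rw [div_le_iff₀ (by positivity)] at g1; linarith
      have a := alg4 (r := vw b x / y x) (a1 := x * deriv y x) (a2 := x ^ 2 * deriv (deriv y) x)
        (q0 := Q x) (q1 := x * vw b x * deriv Q x) (q2 := x ^ 2 * vw b x ^ 2 * deriv (deriv Q) x)
        (w0 := W x / vw b x ^ 2) (w1 := x * deriv W x / vw b x) (w2 := x ^ 2 * deriv (deriv W) x)
        hM (by positivity) hr hv0.le hv1 (by rwa [abs_mul, abs_of_pos hx0])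
        (by rwa [abs_mul, abs_of_nonneg (sq_nonneg x)])
        (by simp only [hWdef]; field_simp) (by rw [eW1]; field_simp; ring)
        (by rw [eW2]; field_simp; ring)
      have edh : dh b Q x = (x ^ 2 * vw b x ^ 2 * deriv (deriv Q) x) ^ 2
          + (x * vw b x * deriv Q x) ^ 2 + Q x ^ 2 := by unfold dh vw; ring
      set t := x / (b - x) with ht
      have ht0 : 0 ≤ t := by positivity
      have einv : 1 / vw b x = 1 + t := by rw [hv, ht]; field_simp; ring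
      have ew0 : W x / vw b x ^ 2 = (1 + t) ^ 2 * W x := by rw [← einv]; field_simp
      have ew1 : x * deriv W x / vw b x = (1 + t) * (x * deriv W x) := by rw [← einv]; field_simp
      rw [← edh, ew0, ew1] at a
      set w0 := W x
      set w1 := x * deriv W x with hw1
      set w2 := x ^ 2 * deriv (deriv W) x with hw2
      have edn : dn W x = w2 ^ 2 + w1 ^ 2 + w0 ^ 2 := by unfold dn; rw [hw1, hw2]; ring
      have eφ : -(4 * K) * ((p + 4) * x ^ (p + 3) * (deriv W x ^ 2 / (b - x))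
          + x ^ (p + 4) * (2 * deriv W x * deriv (deriv W) x / (b - x)
            + deriv W x ^ 2 / (b - x) ^ 2))
          - K * ((p + 4) * x ^ (p + 3) * (w0 ^ 2 / (b - x) ^ 3)
          + x ^ (p + 4) * (2 * w0 * deriv W x / (b - x) ^ 3 + 3 * w0 ^ 2 / (b - x) ^ 4))
          = x ^ p * (-(K * ((p + 4) * (4 * (t * w1 ^ 2) + t ^ 3 * w0 ^ 2)))
            - K * (8 * (t * w1) * w2 + 4 * (t * w1) ^ 2 + 2 * (t ^ 2 * w0) * (t * w1)
              + 3 * (t ^ 2 * w0) ^ 2)) := by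
        rw [hw1, hw2, ht]; field_simp; ring
      rw [eφ, edn, ← mul_add, mul_left_comm (10 ^ 5 * M ^ 12)]
      refine mul_le_mul_of_nonneg_left ?_ (pow_nonneg hx0.le p)
      exact alg4b (by positivity) ht0 (by positivity) hK a)
  simpa using key

end Vale.Agent.N264X.P264Z
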