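import Vale.Agent.N264X.F.Dec

/-!
# P264, block F: sup bounds and lower order bounds from the energies
-/

open scoped ContDiff Topology
open Set MeasureTheory intervalIntegral

noncomputable section

namespace Vale.Agent.N264X.P264Z

open Vale.Agent.P264Z

open F

theorem F.sq_le_of_abs_le {u c e : ℝ} (h : |u| ≤ c * Real.sqrt e) (he : 0 ≤ e) :
    u ^ 2 ≤ c ^ 2 * e := by
  have h1 : u ^ 2 ≤ (c * Real.sqrt e) ^ 2 := by rw [← sq_abs]; gcongr
  rwa [mul_pow, Real.sq_sqrt he] at h1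

theorem F.abs_le_of_sq_le {u c e : ℝ} (hc : 0 ≤ c) (he : 0 ≤ e) (h : u ^ 2 ≤ c ^ 2 * e) :
    |u| ≤ c * Real.sqrt e := by
  refine abs_le_of_sq_le_sq' ?_ (by positivity) |> abs_le.2
  rwa [mul_pow, Real.sq_sqrt he]

theorem f5b : F5b := by
  refine ⟨66, by norm_num, ?_⟩
  intro X ζ m hX hm h
  have hζ : 0 ≤ ζ := (sq_nonneg _).trans (h 0 ⟨le_rfl, hX.le⟩)
  have h1 : ∀ x ∈ Icc 0 X, |x * Mop 7 m x| ≤ Real.sqrt ζ := fun x hx => Real.abs_le_sqrt (h x hx)
  have kd := cont_dn hm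
  have h2 := int_mono hX.le (f := fun x => x ^ 2 * dn m x) (g := fun _ => 66 * ζ) (by fun_prop)
    (by fun_prop) (fun x hx => by
      obtain ⟨e0, e1, e2⟩ := sup_of_M hm h1 (Ioo_subset_Icc_self hx)
      have g0 := sq_le_of_abs_le (c := 1 / 42) (e0.trans_eq (by ring)) hζ
      have g1 := sq_le_of_abs_le (c := 1 / 2) (e1.trans_eq (by ring)) hζ
      have g2 := sq_le_of_abs_le (c := 8) e2 hζ
      unfold dn
      nlinarith)
  rw [intervalIntegral.integral_const, smul_eq_mul] at h2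
  unfold Dn
  linarith

variable {b : ℝ} {m : ℝ → ℝ}

theorem F.xZ0_sq (hb : 0 < b) (hm : ContDiff ℝ ∞ m) {x : ℝ} (hx : x ∈ Icc 0 b) :
    (x * Z0 b m x) ^ 2 ≤ 16 * En 3 b (vw b) m := by
  have hE := En_nn (m := m) 3 hb.le
  rcases le_total x (b / 2) with h | h
  · linarith [(Z0_left hb hm ⟨hx.1, h⟩).1]
  · have h1 := Z0_right 3 hb hm ⟨h, hx.2⟩
    have h2 : x ^ 2 ≤ b ^ 2 := by have := hx.1; have := hx.2; gcongr
    calc _ = x ^ 2 * Z0 b m x ^ 2 := by ring
      _ ≤ b ^ 2 * (En 3 b (vw b) m * (b / 2 * (b ^ 2 / (b / 2) ^ (3 + 2)))) := by gcongr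
      _ = _ := by field_simp; ring

theorem F.mom_cs (k : ℕ) (hb : 0 < b) {g : ℝ → ℝ} (hg : Continuous g) :
    (∫ x in (0 : ℝ)..b, x ^ k * g x) ^ 2
      ≤ b ^ (2 * k + 1) / (2 * k + 1) * ∫ x in (0 : ℝ)..b, g x ^ 2 := by
  have h1 := cs hb.le (h := fun x => x ^ k * g x) (F := fun x => x ^ (2 * k))
    (G := fun x => g x ^ 2) (by fun_prop) (by fun_prop) (by fun_prop)
    (fun x hx => by have := hx.1; positivity) (fun x _ => sq_nonneg _)
    (fun x _ => le_of_eq (by ring))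
  rw [integral_pow] at h1
  simpa using h1

theorem F.AB3 (hb : 0 < b) (hm : ContDiff ℝ ∞ m) (h0 : m b = 0) (h1 : deriv m b = 0) :
    (Ac b m * b) ^ 2 ≤ 10 ^ 7 * En 3 b (vw b) m ∧
      (Bc b m * b ^ 2) ^ 2 ≤ 10 ^ 7 * En 3 b (vw b) m := by
  have hE := En_nn (m := m) 3 hb.le
  have kZ := (cdZ (b := b) hm).continuous
  have h2 := int_mono hb.le (f := fun x => (x * Z0 b m x) ^ 2) (g := fun _ => 16 * En 3 b (vw b) m)
    (by fun_prop) (by fun_prop) (fun x hx => xZ0_sq hb hm (Ioo_subset_Icc_self hx))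
  rw [intervalIntegral.integral_const, smul_eq_mul, sub_zero] at h2
  refine moments hb hm h0 h1 ?_ ?_
  · have h3 := mom_cs 5 hb (g := fun x => x * Z0 b m x) (by fun_prop)
    simp only [← mul_assoc, ← pow_succ] at h3
    refine h3.trans ?_
    calc _ ≤ b ^ (2 * 5 + 1) / (2 * (5 : ℕ) + 1) * (b * (16 * En 3 b (vw b) m)) := by gcongr
      _ = 16 / 11 * (b ^ 12 * En 3 b (vw b) m) := by push_cast; ring
      _ ≤ _ := by have : 0 ≤ b ^ 12 * En 3 b (vw b) m := by positivity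
                  linarith
  · have h3 := mom_cs 6 hb (g := fun x => x * Z0 b m x) (by fun_prop)
    simp only [← mul_assoc, ← pow_succ] at h3
    refine h3.trans ?_
    calc _ ≤ b ^ (2 * 6 + 1) / (2 * (6 : ℕ) + 1) * (b * (16 * En 3 b (vw b) m)) := by gcongr
      _ = 16 / 13 * (b ^ 14 * En 3 b (vw b) m) := by push_cast; ring
      _ ≤ _ := by have : 0 ≤ b ^ 14 * En 3 b (vw b) m := by positivity
                  linarith

theorem F.xM_sq (hb : 0 < b) (hm : ContDiff ℝ ∞ m) (h0 : m b = 0) (h1 : deriv m b = 0) {x : ℝ}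
    (hx : x ∈ Icc 0 b) : (x * Mop 7 m x) ^ 2 ≤ (10 ^ 4) ^ 2 * En 3 b (vw b) m := by
  have hE := En_nn (m := m) 3 hb.le
  obtain ⟨hA, hB⟩ := AB3 hb hm h0 h1
  have hZ := xZ0_sq hb hm hx
  have hx2 : x ^ 2 ≤ b ^ 2 := by have := hx.1; have := hx.2; gcongr
  have hx4 : (x ^ 2) ^ 2 ≤ (b ^ 2) ^ 2 := by gcongr
  have hA' : (Ac b m * x) ^ 2 ≤ (Ac b m * b) ^ 2 := by rw [mul_pow, mul_pow]; gcongr
  have hB' : (Bc b m * x ^ 2) ^ 2 ≤ (Bc b m * b ^ 2) ^ 2 := by rw [mul_pow, mul_pow]; gcongr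
  have e : x * Mop 7 m x = Ac b m * x + Bc b m * x ^ 2 + x * Z0 b m x := by unfold Z0; ring
  rw [e]
  nlinarith [sq_nonneg (Ac b m * x - Bc b m * x ^ 2), sq_nonneg (Ac b m * x - x * Z0 b m x),
    sq_nonneg (Bc b m * x ^ 2 - x * Z0 b m x)]

theorem f5 : F5 := by
  refine ⟨10 ^ 14, by norm_num, ?_⟩
  intro b m hb hm h0 h1 x hx
  have hE := En_nn (m := m) 3 hb.le
  set E := En 3 b (vw b) m with hEdef
  set e := Real.sqrt E with he
  have he0 : 0 ≤ e := Real.sqrt_nonneg _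
  have h2 : ∀ x ∈ Icc 0 b, |x * Mop 7 m x| ≤ 10 ^ 4 * e := fun x hx =>
    abs_le_of_sq_le (by norm_num) hE (xM_sq hb hm h0 h1 hx)
  obtain ⟨e0, e1, e2⟩ := sup_of_M hm h2 hx
  have g0 := sq_le_of_abs_le (c := 10 ^ 4 / 42) (e0.trans_eq (by ring)) hE
  have g1 := sq_le_of_abs_le (c := 10 ^ 4 / 2) (e1.trans_eq (by ring)) hE
  have g2 := sq_le_of_abs_le (c := 8 * 10 ^ 4) (e2.trans_eq (by ring)) hE
  refine ⟨?_, by linarith, by linarith, fun hxb => ?_⟩
  · rcases le_total x (b / 2) with h | h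
    · have := mul_le_mul_of_nonneg_right (vw_half hb h) hE
      nlinarith
    · have h3 : ∀ s ∈ Icc (b / 2) b, ‖deriv m s‖ ≤ 2 * 10 ^ 4 * e / b ^ 2 := by
        intro s hs
        have hs0 : 0 < s := by linarith [hs.1]
        have h4 := (sup_of_M hm h2 ⟨hs0.le, hs.2⟩).2.1
        rw [abs_mul, abs_of_nonneg (sq_nonneg s)] at h4
        rw [Real.norm_eq_abs, le_div_iff₀ (by positivity)]
        have h5 : b ^ 2 ≤ 4 * s ^ 2 := by nlinarith [hs.1]
        nlinarith [mul_le_mul_of_nonneg_left h5 (abs_nonneg (deriv m s))]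
      have h4 := (convex_Icc (b / 2) b).norm_image_sub_le_of_norm_deriv_le
        (fun s _ => (hd hm s).differentiableAt) h3 ⟨by linarith, le_rfl⟩ ⟨h, hx.2⟩
      rw [h0, sub_zero, Real.norm_eq_abs, Real.norm_eq_abs, abs_sub_comm,
        abs_of_nonneg (sub_nonneg.2 hx.2)] at h4
      have h5 : |x * m x| ≤ (2 * 10 ^ 4 * vw b x) * e := by
        rw [abs_mul, abs_of_nonneg hx.1]
        calc _ ≤ b * (2 * 10 ^ 4 * e / b ^ 2 * (b - x)) := by gcongr; exact hx.2
          _ = _ := by unfold vw; field_simp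
      have h6 := sq_le_of_abs_le h5 hE
      have : 0 ≤ vw b x ^ 2 * E := by positivity
      nlinarith
  · obtain ⟨-, hB⟩ := AB3 hb hm h0 h1
    have hZ := (Z0_left hb hm ⟨hx.1, hxb⟩).2
    have hx4 : (x ^ 2) ^ 2 ≤ (b ^ 2) ^ 2 := by have := hx.1; have := hx.2; gcongr
    have hB' : (Bc b m * x ^ 2) ^ 2 ≤ (Bc b m * b ^ 2) ^ 2 := by rw [mul_pow, mul_pow]; gcongr
    have a1 : |Bc b m * x ^ 2| ≤ 10 ^ 4 * e := abs_le_of_sq_le (by norm_num) hE (by nlinarith)
    have a2 : |x ^ 2 * deriv (Z0 b m) x| ≤ 1 * e := abs_le_of_sq_le (by norm_num) hE (by linarith)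
    have e3 : x ^ 4 * deriv (deriv (deriv m)) x = Bc b m * x ^ 2 + x ^ 2 * deriv (Z0 b m) x
        - 18 * (x ^ 3 * deriv (deriv m) x) - 72 * (x ^ 2 * deriv m x) := by
      rw [Z1_eq hm, M1_eq hm]; ring
    have a3 : |x ^ 4 * deriv (deriv (deriv m)) x| ≤ 10 ^ 7 * e := by
      rw [e3]
      rw [abs_le] at a1 a2 e1 e2 ⊢
      constructor <;> linarith [a1.1, a1.2, a2.1, a2.2, e1.1, e1.2, e2.1, e2.2]
    have := sq_le_of_abs_le a3 hE
    linarith

theorem F.hardyZ (hb : 0 < b) (hm : ContDiff ℝ ∞ m) :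
    (∫ s in (0 : ℝ)..b / 2, s ^ 2 * deriv (Z0 b m) s ^ 2) ≤ 2 * En 2 b (vw b) m ∧
      (∫ s in (0 : ℝ)..b / 2, Z0 b m s ^ 2) ≤ 8 * En 2 b (vw b) m := by
  have hE := En_nn (m := m) 2 hb.le
  have hc : 0 ≤ b / 2 := by linarith
  have kL := (cdL hm).continuous
  have kv := cont_vw b
  have h1 := hardy 2 hc (cd1 (cdZ (b := b) hm)) (Z1_half hm)
  have h2 := hardy 0 hc (cdZ (b := b) hm) Z0_half
  rw [Z2_eq hm] at h1
  have h3 := int_mono hc (f := fun s => s ^ (2 + 2) * Lop 7 m s ^ 2)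
    (g := fun s => 4 * (s ^ (2 + 2) * vw b s ^ 2 * Lop 7 m s ^ 2)) (by fun_prop) (by fun_prop)
    (fun s hs => by
      have hs0 := hs.1
      have := mul_le_mul_of_nonneg_left (vw_half hb hs.2.le)
        (by positivity : 0 ≤ s ^ (2 + 2) * Lop 7 m s ^ 2)
      linarith)
  rw [intervalIntegral.integral_const_mul] at h3
  have h4 := En_sub 2 hm le_rfl hc (by linarith : b / 2 ≤ b)
  simp only [pow_zero, one_mul, Nat.cast_zero, zero_add, one_pow] at h2
  push_cast at h1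
  constructor <;> linarith

theorem F.intZ0 (hb : 0 < b) (hm : ContDiff ℝ ∞ m) :
    (∫ s in (0 : ℝ)..b, Z0 b m s ^ 2) ≤ 12 * En 2 b (vw b) m := by
  have kZ := (cdZ (b := b) hm).continuous
  have h1 := (hardyZ hb hm).2
  have h2 := int_mono (by linarith : b / 2 ≤ b) (f := fun s => Z0 b m s ^ 2)
    (g := fun _ => En 2 b (vw b) m * (b / 2 * (b ^ 2 / (b / 2) ^ (2 + 2)))) (by fun_prop)
    (by fun_prop) (fun s hs => Z0_right 2 hb hm (Ioo_subset_Icc_self hs))
  rw [intervalIntegral.integral_const, smul_eq_mul] at h2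
  have h3 : (b - b / 2) * (En 2 b (vw b) m * (b / 2 * (b ^ 2 / (b / 2) ^ (2 + 2))))
      = 4 * En 2 b (vw b) m := by field_simp; ring
  rw [← integral_add_adjacent_intervals (b := b / 2) (Continuous.intervalIntegrable (by fun_prop) _ _)
    (Continuous.intervalIntegrable (by fun_prop) _ _)]
  linarith

theorem F.AB2 (hb : 0 < b) (hm : ContDiff ℝ ∞ m) (h0 : m b = 0) (h1 : deriv m b = 0) :
    Ac b m ^ 2 * b ≤ 10 ^ 7 * En 2 b (vw b) m ∧ Bc b m ^ 2 * b ^ 3 ≤ 10 ^ 7 * En 2 b (vw b) m := by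
  have hE := En_nn (m := m) 2 hb.le
  have kZ := (cdZ (b := b) hm).continuous
  have h2 := intZ0 hb hm
  have key := moments hb hm h0 h1 (K := b * En 2 b (vw b) m) (by
    refine (mom_cs 6 hb kZ).trans ?_
    calc _ ≤ b ^ (2 * 6 + 1) / (2 * (6 : ℕ) + 1) * (12 * En 2 b (vw b) m) := by gcongr
      _ = 12 / 13 * (b ^ 12 * (b * En 2 b (vw b) m)) := by push_cast; ring
      _ ≤ _ := by have : 0 ≤ b ^ 12 * (b * En 2 b (vw b) m) := by positivity
                  linarith) (by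
    refine (mom_cs 7 hb kZ).trans ?_
    calc _ ≤ b ^ (2 * 7 + 1) / (2 * (7 : ℕ) + 1) * (12 * En 2 b (vw b) m) := by gcongr
      _ = 12 / 15 * (b ^ 14 * (b * En 2 b (vw b) m)) := by push_cast; ring
      _ ≤ _ := by have : 0 ≤ b ^ 14 * (b * En 2 b (vw b) m) := by positivity
                  linarith)
  constructor
  · refine le_of_mul_le_mul_left ?_ hb
    nlinarith [key.1]
  · refine le_of_mul_le_mul_left ?_ hb
    nlinarith [key.2]

theorem f6 : F6 := by
  refine ⟨10 ^ 8, by norm_num, ?_⟩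
  intro b m hb hm h0 h1
  have hE := En_nn (m := m) 2 hb.le
  have c1 := cd1 hm
  have k0 := hm.continuous
  have k1 := c1.continuous
  have kd := cont_dn hm
  have kZ := (cdZ (b := b) hm).continuous
  obtain ⟨hA, hB⟩ := AB2 hb hm h0 h1
  have h2 := intZ0 hb hm
  have key := int_le hb.le (f := fun x => x ^ 0 * dn m x)
    (g := fun x => 3 * (Ac b m ^ 2 + Bc b m ^ 2 * b ^ 2) + 3 * Z0 b m x ^ 2)
    (Φ := fun x => 16 * (x ^ 3 * (deriv m x * deriv m x)) + 112 * (x ^ 2 * (m x * deriv m x))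
      + 784 * (x * (m x * m x))) (by fun_prop) (by fun_prop) (by fun_prop)
    (fun x _ => ((((hasDerivAt_pow 3 x).mul ((hd c1 x).mul (hd c1 x))).const_mul 16).add
      (((hasDerivAt_pow 2 x).mul ((hd hm x).mul (hd c1 x))).const_mul 112)).add
      (((hasDerivAt_id' x).mul ((hd hm x).mul (hd hm x))).const_mul 784))
    (fun x hx => by
      have e : Mop 7 m x = Ac b m + Bc b m * x + Z0 b m x := by unfold Z0; ring
      have hx2 : x ^ 2 ≤ b ^ 2 := by have := hx.1; have := hx.2; gcongr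
      have h3 : Mop 7 m x ^ 2 ≤ 3 * (Ac b m ^ 2 + Bc b m ^ 2 * b ^ 2) + 3 * Z0 b m x ^ 2 := by
        have := mul_le_mul_of_nonneg_left hx2 (sq_nonneg (Bc b m))
        rw [e]
        nlinarith [sq_nonneg (Ac b m - Bc b m * x), sq_nonneg (Ac b m - Z0 b m x),
          sq_nonneg (Bc b m * x - Z0 b m x)]
      refine le_trans ?_ h3
      rw [M_eq]
      simp only [dn, Pi.mul_apply]
      push_cast
      nlinarith [sq_nonneg (x * deriv m x), sq_nonneg (m x)])
  rw [integral_add (Continuous.intervalIntegrable (by fun_prop) _ _)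
    (Continuous.intervalIntegrable (by fun_prop) _ _), intervalIntegral.integral_const,
    intervalIntegral.integral_const_mul, smul_eq_mul] at key
  simp only [h0, h1] at key
  unfold Dn
  nlinarith

theorem f8 : F8 := by
  refine ⟨10 ^ 8, by norm_num, ?_⟩
  intro b m hb hm h0 h1
  have hE := En_nn (m := m) 2 hb.le
  have hc : 0 ≤ b / 2 := by linarith
  have kM := (cdM hm).continuous
  have kM1 := (cd1 (cdM hm)).continuous
  have kZ := (cdZ (b := b) hm).continuous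
  have kZ1 := (cd1 (cdZ (b := b) hm)).continuous
  obtain ⟨hA, hB⟩ := AB2 hb hm h0 h1
  obtain ⟨hZ1, hZ0⟩ := hardyZ hb hm
  have h2 := int_mono hc (f := fun s => (Mop 7 m s + s * deriv (Mop 7 m) s) ^ 2)
    (g := fun s => 4 * (Ac b m ^ 2 + Bc b m ^ 2 * b ^ 2) + (4 * Z0 b m s ^ 2
      + 4 * (s ^ 2 * deriv (Z0 b m) s ^ 2))) (by fun_prop) (by fun_prop) (fun s hs => by
      have e : Mop 7 m s + s * deriv (Mop 7 m) s
          = Ac b m + 2 * Bc b m * s + Z0 b m s + s * deriv (Z0 b m) s := by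
        rw [Z1_eq hm]; unfold Z0; ring
      have hx2 : 4 * s ^ 2 ≤ b ^ 2 := by nlinarith [hs.1, hs.2]
      have := mul_le_mul_of_nonneg_left hx2 (sq_nonneg (Bc b m))
      rw [e]
      nlinarith [sq_nonneg (Ac b m - 2 * Bc b m * s), sq_nonneg (Ac b m - Z0 b m s),
        sq_nonneg (2 * Bc b m * s - Z0 b m s), sq_nonneg (Ac b m - s * deriv (Z0 b m) s),
        sq_nonneg (2 * Bc b m * s - s * deriv (Z0 b m) s),
        sq_nonneg (Z0 b m s - s * deriv (Z0 b m) s)])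
  rw [integral_add (Continuous.intervalIntegrable (by fun_prop) _ _)
    (Continuous.intervalIntegrable (by fun_prop) _ _), intervalIntegral.integral_const,
    integral_add (Continuous.intervalIntegrable (by fun_prop) _ _)
    (Continuous.intervalIntegrable (by fun_prop) _ _),
    intervalIntegral.integral_const_mul, intervalIntegral.integral_const_mul, smul_eq_mul] at h2
  have h3 : (∫ s in (0 : ℝ)..b / 2, (Mop 7 m s + s * deriv (Mop 7 m) s) ^ 2)
      ≤ 10 ^ 8 * En 2 b (vw b) m := by nlinarith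
  have key : ∀ x ∈ Icc 0 (b / 2), ∀ z ∈ Icc 0 (b / 2), z ≤ x →
      (x * Mop 7 m x - z * Mop 7 m z) ^ 2 ≤ 10 ^ 8 * (x - z) * En 2 b (vw b) m := by
    intro x hx z hz hzx
    have e : (∫ s in z..x, (Mop 7 m s + s * deriv (Mop 7 m) s))
        = x * Mop 7 m x - z * Mop 7 m z := by
      refine integral_eq_sub_of_hasDerivAt (f := fun s => s * Mop 7 m s) (fun s _ => ?_)
        (Continuous.intervalIntegrable (by fun_prop) _ _)
      refine HasDerivAt.congr_deriv ((hasDerivAt_id' s).mul (hd (cdM hm) s)) ?_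
      ring
    have h4 := cs hzx (h := fun s => Mop 7 m s + s * deriv (Mop 7 m) s) (F := fun _ => 1)
      (G := fun s => (Mop 7 m s + s * deriv (Mop 7 m) s) ^ 2) (by fun_prop) (by fun_prop)
      (by fun_prop) (fun _ _ => zero_le_one) (fun _ _ => sq_nonneg _) (fun _ _ => by simp)
    rw [e, intervalIntegral.integral_const, smul_eq_mul, mul_one] at h4
    have h5 := int_sub hz.1 hzx hx.2 (f := fun s => (Mop 7 m s + s * deriv (Mop 7 m) s) ^ 2)
      (by fun_prop) (fun _ _ => sq_nonneg _)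
    nlinarith [mul_le_mul_of_nonneg_left (h5.trans h3) (sub_nonneg.2 hzx)]
  intro x hx z hz
  rcases le_total z x with h | h
  · rw [abs_of_nonneg (sub_nonneg.2 h)]; exact key x hx z hz h
  · rw [abs_sub_comm, abs_of_nonneg (sub_nonneg.2 h), ← neg_sq, neg_sub]; exact key z hz x hx h

end Vale.Agent.N264X.P264Z
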