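import Vale.Agent.N264X.E.Stab
import Vale.Agent.N264X.F.F2
import Vale.Agent.N264X.F.F4
import Vale.Agent.N264X.F.F5
import Vale.Agent.N264X.F.F7
import Vale.Agent.N264X.F.F10
import Vale.Agent.N264X.F.F11

/-!
# P264: all the fixed-time inequalities hold
-/

namespace Vale.Agent.N264X.P264Z

open Vale.Agent.P264Z

theorem fall : FAll := ⟨f2, f3, f4, f5, f5b, f6, f7a, f7b, f8, f9, f10, f11⟩

end Vale.Agent.N264X.P264Z
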